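import Vale.Agent.P095.Bdl.B19

open scoped TensorProduct

namespace Vale.Agent.Results.P095.GeneralCase

open Vale.Agent.P095 Vale.Agent.P095K Vale.Agent.P095R Vale.Agent.P101

universe u w

/-- Let `A` be a separable, simple, nuclear C*-algebra (unital or not) which is isomorphic to its
tensor product `B` with the Jiang-Su algebra `Z`, let `G` be a countable amenable group, let `α` be
an action of `G` on `A` and let `β` be the action `α ⊗ id` on `B`. Then `α` and `β` are cocycle
conjugate. -/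
theorem result {A Z B : Type u} [NonUnitalCStarAlgebra A] [CStarAlgebra Z]
    [NonUnitalCStarAlgebra B] [TopologicalSpace.SeparableSpace A] (hS : IsSimpleAlg A)
    (hA : IsNuclearAlg A) (hZ : IsJiangSuAlgebra Z) (hZ' : IsStronglySelfAbsorbing Z)
    (T : A →ₗ[ℂ] Z →ₗ[ℂ] B) (hB : IsTensorProd T) (hAB : Nonempty (A ≃⋆ₐ[ℂ] B))
    {G : Type w} [Group G] [Countable G] (hG : IsAmenable G) (α : G →* (A ≃⋆ₐ[ℂ] A))
    (β : G →* (B ≃⋆ₐ[ℂ] B)) (hβ : ∀ g a z, β g (T a z) = T (α g a) z) : IsCocycleConj α β :=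
  general_conj hS hA hZ hZ' T hB hAB hG α β hβ

end Vale.Agent.Results.P095.GeneralCase
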